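import Mathlib

namespace Vale.Agent.P033

/-- `H` is a real Hadamard matrix of order `n`: entries `±1` and `H Hᵀ = n I`. -/
def IsHadamard (n : ℕ) (H : Matrix (Fin n) (Fin n) ℝ) : Prop :=
  (∀ i j, H i j = 1 ∨ H i j = -1) ∧
    H * H.transpose = (n : ℝ) • (1 : Matrix (Fin n) (Fin n) ℝ)

/-- `H` is circulant: `H i j = h ((j - i) mod n)`, the subtraction being the one of `Fin n`. -/
def IsCirculant (n : ℕ) (H : Matrix (Fin n) (Fin n) ℝ) : Prop :=
  ∃ h : Fin n → ℝ, ∀ i j : Fin n, H i j = h (j - i)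

/-- `n ≥ 1` is the order of a real circulant Hadamard matrix. -/
def IsCirculantHadamardOrder (n : ℕ) : Prop :=
  1 ≤ n ∧ ∃ H : Matrix (Fin n) (Fin n) ℝ, IsHadamard n H ∧ IsCirculant n H

end Vale.Agent.P033
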